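import Vale.Agent.P092.H378.T3.Rect
import Vale.Agent.P092.H283.Car7

/-!
# P092, [CLA]: T3 over every local field, abstract form

`F` = maximal spaces `L`, `G`, `G'` = hyperplanes `A` of `L`, `E` = points `x`. `G` commutes with
`F` and with a third calculus `Q` which commutes with `E`. `α`, `lm`, `R` = matrices of coordinate
functions with `α R = R α = 0` for `A ⊥ x` and `lm - α` of rank one for `A ⊂ L`.
-/

set_option linter.unusedSectionVars false
set_option linter.unusedVariables false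

namespace Vale.Agent.P092.H378.T3

open Set Topology
open Vale.Agent.P092.H232 (Nin two_ind split_inc)
open Vale.Agent.P092.H283.Car (clp clp_cont clp_eq clp_le)

section div2

variable {X Y V : Type*} [TopologicalSpace X] [CompactSpace X] [TopologicalSpace Y] [CompactSpace Y]
  [NormedAddCommGroup V] [NormedSpace ℂ V]

/-- local division, two spaces -/
theorem div2 {τ : Type} [Fintype τ] (a : τ → C(X, ℂ)) (b : τ → C(Y, ℂ))
    (B : C(X, ℂ) →ₗ[ℂ] C(Y, ℂ) →ₗ[ℂ] V) {M : ℝ} (hM : 0 ≤ M)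
    (hB : ∀ u u', ‖B u u'‖ ≤ M * ‖u‖ * ‖u'‖)
    (u : C(X, ℂ)) (u' : C(Y, ℂ))
    (h : ∀ g g', ∑ i, B (u * g * a i) (u' * g' * b i) = 0)
    (x₀ : X) (y₀ : Y) {r A : ℝ} (hr : 0 ≤ r) (hA : ∀ i, ‖a i‖ ≤ A ∧ ‖b i‖ ≤ A)
    (ha : ∀ x, u x ≠ 0 → ∀ i, ‖a i x - a i x₀‖ ≤ r)
    (hb : ∀ y, u' y ≠ 0 → ∀ i, ‖b i y - b i y₀‖ ≤ r)
    (hc : Fintype.card τ * (2 * (2 * r * A)) < ‖∑ i, a i x₀ * b i y₀‖) :
    B u u' = 0 := by
  set c := ‖∑ i, a i x₀ * b i y₀‖ with hcdef
  set κ := Fintype.card τ * (2 * (2 * r * A)) with hκ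
  have hA0 : ∀ i : τ, 0 ≤ A := fun i => (norm_nonneg _).trans (hA i).1
  have hκ0 : 0 ≤ κ := by
    rw [hκ]
    rcases isEmpty_or_nonempty τ with hτ | ⟨⟨i⟩⟩
    · simp
    · have := hA0 i
      positivity
  have hc0 : 0 < c := lt_of_le_of_lt hκ0 hc
  have step : ∀ s : ℝ, 0 ≤ s → (∀ g g', ‖B (u * g) (u' * g')‖ ≤ s * ‖g‖ * ‖g'‖) →
      ∀ g g', ‖B (u * g) (u' * g')‖ ≤ (κ / c * s) * ‖g‖ * ‖g'‖ := by
    intro s hs hsB g g'
    let ca : τ → C(X, ℂ) := fun i => ⟨fun x => clp r (a i x - a i x₀), (clp_cont r).comp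
      (by fun_prop)⟩
    let cb : τ → C(Y, ℂ) := fun i => ⟨fun x => clp r (b i x - b i y₀), (clp_cont r).comp
      (by fun_prop)⟩
    have hca : ∀ i, ‖ca i‖ ≤ 2 * r := fun i =>
      (ContinuousMap.norm_le _ (by positivity)).mpr fun x => clp_le hr _
    have hcb : ∀ i, ‖cb i‖ ≤ 2 * r := fun i =>
      (ContinuousMap.norm_le _ (by positivity)).mpr fun x => clp_le hr _
    have e1 : ∀ i, u * g * a i = u * (g * ca i) + a i x₀ • (u * g) := by
      intro i
      ext x
      simp only [ContinuousMap.mul_apply, ContinuousMap.add_apply, ContinuousMap.smul_apply,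
        smul_eq_mul, ca, ContinuousMap.coe_mk]
      by_cases hx : u x = 0
      · rw [hx]; ring
      · rw [clp_eq (ha x hx i)]; ring
    have e2 : ∀ i, u' * g' * b i = u' * (g' * cb i) + b i y₀ • (u' * g') := by
      intro i
      ext x
      simp only [ContinuousMap.mul_apply, ContinuousMap.add_apply, ContinuousMap.smul_apply,
        smul_eq_mul, cb, ContinuousMap.coe_mk]
      by_cases hx : u' x = 0
      · rw [hx]; ring
      · rw [clp_eq (hb x hx i)]; ring
    have e3 : (∑ i, a i x₀ * b i y₀) • B (u * g) (u' * g') =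
        -∑ i, (B (u * (g * ca i)) (u' * (g' * b i)) + a i x₀ • B (u * g) (u' * (g' * cb i))) := by
      have h1 := h g g'
      have h2 : ∀ i, B (u * g * a i) (u' * g' * b i) =
          (B (u * (g * ca i)) (u' * (g' * b i)) + a i x₀ • B (u * g) (u' * (g' * cb i))) +
            (a i x₀ * b i y₀) • B (u * g) (u' * g') := by
        intro i
        rw [e1 i, map_add, LinearMap.add_apply, map_smul, LinearMap.smul_apply]
        conv_lhs => rw [e2 i]
        have e4 : u' * (g' * b i) = u' * (g' * cb i) + b i y₀ • (u' * g') := by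
          rw [← mul_assoc]; exact e2 i
        rw [e4]
        simp only [map_add, map_smul, smul_add, smul_smul]
        abel
      rw [Finset.sum_congr rfl (fun i _ => h2 i), Finset.sum_add_distrib, ← Finset.sum_smul,
        add_comm] at h1
      exact eq_neg_of_add_eq_zero_left h1
    have e4 : c * ‖B (u * g) (u' * g')‖ ≤ κ * s * ‖g‖ * ‖g'‖ := by
      rw [hcdef, ← norm_smul, e3, norm_neg]
      refine (norm_sum_le _ _).trans ?_
      have e5 : ∀ i ∈ (Finset.univ : Finset τ), ‖B (u * (g * ca i)) (u' * (g' * b i)) +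
          a i x₀ • B (u * g) (u' * (g' * cb i))‖ ≤ 2 * (2 * r * A) * s * ‖g‖ * ‖g'‖ := by
        intro i _
        have hAi := hA0 i
        have f1 : ‖B (u * (g * ca i)) (u' * (g' * b i))‖ ≤ s * (‖g‖ * (2 * r)) * (‖g'‖ * A) := by
          refine (hsB _ _).trans ?_
          have n1 : ‖g * ca i‖ ≤ ‖g‖ * (2 * r) :=
            (norm_mul_le _ _).trans (mul_le_mul_of_nonneg_left (hca i) (norm_nonneg _))
          have n2 : ‖g' * b i‖ ≤ ‖g'‖ * A :=
            (norm_mul_le _ _).trans (mul_le_mul_of_nonneg_left (hA i).2 (norm_nonneg _))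
          gcongr
        have f2 : ‖a i x₀ • B (u * g) (u' * (g' * cb i))‖ ≤ A * (s * ‖g‖ * (‖g'‖ * (2 * r))) := by
          rw [norm_smul]
          have n1 : ‖g' * cb i‖ ≤ ‖g'‖ * (2 * r) :=
            (norm_mul_le _ _).trans (mul_le_mul_of_nonneg_left (hcb i) (norm_nonneg _))
          have n2 : ‖a i x₀‖ ≤ A := ((a i).norm_coe_le_norm x₀).trans (hA i).1
          have n3 : ‖B (u * g) (u' * (g' * cb i))‖ ≤ s * ‖g‖ * (‖g'‖ * (2 * r)) :=
            (hsB _ _).trans (mul_le_mul_of_nonneg_left n1 (by positivity))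
          exact mul_le_mul n2 n3 (norm_nonneg _) hAi
        refine (norm_add_le _ _).trans ((add_le_add f1 f2).trans (le_of_eq (by ring)))
      refine (Finset.sum_le_sum e5).trans (le_of_eq ?_)
      rw [Finset.sum_const, nsmul_eq_mul, hκ, Finset.card_univ]
      ring
    have e6 : ‖B (u * g) (u' * g')‖ ≤ (κ * s * ‖g‖ * ‖g'‖) / c := by
      rw [le_div_iff₀ hc0, mul_comm]
      exact e4
    refine e6.trans (le_of_eq (by ring))
  have iter : ∀ k : ℕ, ∀ g g', ‖B (u * g) (u' * g')‖ ≤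
      ((κ / c) ^ k * (M * ‖u‖ * ‖u'‖)) * ‖g‖ * ‖g'‖ := by
    intro k
    induction k with
    | zero =>
      intro g g'
      rw [pow_zero, one_mul]
      refine (hB _ _).trans ?_
      have n1 := norm_mul_le u g
      have n2 := norm_mul_le u' g'
      calc M * ‖u * g‖ * ‖u' * g'‖ ≤ M * (‖u‖ * ‖g‖) * (‖u'‖ * ‖g'‖) := by gcongr
        _ = _ := by ring
    | succ k ih =>
      intro g g'
      have := step _ (by positivity) ih g g'
      refine this.trans (le_of_eq ?_)
      rw [pow_succ]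
      ring
  have hlt : κ / c < 1 := by rw [div_lt_one hc0]; exact hc
  have hlim : Filter.Tendsto (fun k : ℕ => ((κ / c) ^ k * (M * ‖u‖ * ‖u'‖)) * ‖(1 : C(X, ℂ))‖ *
      ‖(1 : C(Y, ℂ))‖) Filter.atTop (nhds 0) := by
    have := (((tendsto_pow_atTop_nhds_zero_of_lt_one (by positivity) hlt).mul_const
      (M * ‖u‖ * ‖u'‖)).mul_const ‖(1 : C(X, ℂ))‖).mul_const ‖(1 : C(Y, ℂ))‖
    simpa using this
  have hle : ‖B u u'‖ ≤ 0 := by
    apply ge_of_tendsto' hlim
    intro k
    have := iter k 1 1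
    simpa using this
  exact norm_le_zero_iff.mp hle

end div2

section alg

variable {R : Type*} [Ring R] {m : Type} [Fintype m]

/-- the operator identity -/
theorem star_eq (L A T : m → m → R) (cLA : ∀ i j s t, Commute (L i j) (A s t))
    (h1 : ∀ i t, ∑ s, A i s * T s t = 0) (h2 : ∀ s j, ∑ t, A t j * T s t = 0)
    (h3 : ∀ i s t j, (L i s - A i s) * (L t j - A t j) = (L i j - A i j) * (L t s - A t s))
    (i j : m) :
    (L i j - A i j) * ∑ s, ∑ t, L t s * T s t = ∑ s, ∑ t, L i s * L t j * T s t := by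
  have e1 : ∀ s t, L i s * L t j = (L i s - A i s) * (L t j - A t j) + L i s * A t j -
      A i s * A t j + L t j * A i s := by
    intro s t
    have h4 := (cLA t j i s).eq
    have : (L i s - A i s) * (L t j - A t j) = L i s * L t j - L i s * A t j - A i s * L t j +
        A i s * A t j := by noncomm_ring
    rw [this, h4]
    abel
  have e2 : ∀ s t, L i s * L t j * T s t = (L i j - A i j) * (L t s * T s t) -
      (L i j - A i j) * (A t s * T s t) + L i s * (A t j * T s t) - A i s * (A t j * T s t) +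
      L t j * (A i s * T s t) := by
    intro s t
    rw [e1 s t, h3]
    noncomm_ring
  have e3 : ∑ s, ∑ t, L i s * L t j * T s t = (L i j - A i j) * ∑ s, ∑ t, L t s * T s t -
      (L i j - A i j) * ∑ s, ∑ t, A t s * T s t + ∑ s, L i s * ∑ t, A t j * T s t -
      ∑ s, A i s * ∑ t, A t j * T s t + ∑ t, L t j * ∑ s, A i s * T s t := by
    have e4 : ∑ t, L t j * ∑ s, A i s * T s t = ∑ s, ∑ t, L t j * (A i s * T s t) := by
      rw [Finset.sum_comm]
      exact Finset.sum_congr rfl fun t _ => Finset.mul_sum _ _ _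
    rw [e4]
    simp only [Finset.mul_sum, ← Finset.sum_add_distrib, ← Finset.sum_sub_distrib]
    exact Finset.sum_congr rfl fun s _ => Finset.sum_congr rfl fun t _ => e2 s t
  have e5 : ∑ s, ∑ t, A t s * T s t = 0 := by
    rw [Finset.sum_comm]
    exact Finset.sum_eq_zero fun t _ => h1 t t
  rw [e3, e5]
  simp only [h1, h2, mul_zero, Finset.sum_const_zero, sub_zero, add_zero]

end alg

section core

variable {X₁ X₂ X₃ K : Type*} [TopologicalSpace X₁] [CompactSpace X₁] [T2Space X₁]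
  [TopologicalSpace X₂] [CompactSpace X₂] [T2Space X₂]
  [TopologicalSpace X₃] [CompactSpace X₃] [T2Space X₃]
  [NormedAddCommGroup K] [InnerProductSpace ℂ K] [CompleteSpace K]
  {In : X₁ → X₃ → Prop} {Sb : X₂ → X₃ → Prop} {m : Type} [Fintype m]

/-- coordinates: `α` of the hyperplanes, `lm` of the maximal spaces, `T` of the points -/
structure Coo (In : X₁ → X₃ → Prop) (Sb : X₂ → X₃ → Prop) (α : m → m → C(X₂, ℂ))
    (lm : m → m → C(X₃, ℂ)) (T : m → m → C(X₁, ℂ)) : Prop where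
  clI : IsClosed {q : X₁ × X₃ | In q.1 q.2}
  clS : IsClosed {q : X₂ × X₃ | Sb q.1 q.2}
  /-- `A` and `x` in a common maximal space -/
  r1 : ∀ A x Y, Sb A Y → In x Y → ∀ i t, ∑ s, α i s A * T s t x = 0
  r2 : ∀ A x Y, Sb A Y → In x Y → ∀ s j, ∑ t, α t j A * T s t x = 0
  /-- `lm - α` has rank one -/
  rk : ∀ A L, Sb A L → ∀ i s t j, (lm i s L - α i s A) * (lm t j L - α t j A) =
    (lm i j L - α i j A) * (lm t s L - α t s A)
  /-- the denominator -/
  dn : ∀ x L, ¬ In x L → ∑ s, ∑ t, lm t s L * T s t x ≠ 0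
  herm : ∀ i j, star (α i j) = α j i
  sep : ∀ A A', (∀ i j, α i j A = α i j A') → A = A'

variable {α : m → m → C(X₂, ℂ)} {lm : m → m → C(X₃, ℂ)} {T : m → m → C(X₁, ℂ)}

/-- a calculus `G` between `F` and `E` -/
structure BrR (In : X₁ → X₃ → Prop) (Sb : X₂ → X₃ → Prop)
    (E : C(X₁, ℂ) →⋆ₐ[ℂ] (K →L[ℂ] K)) (F : C(X₃, ℂ) →⋆ₐ[ℂ] (K →L[ℂ] K))
    (G : C(X₂, ℂ) →⋆ₐ[ℂ] (K →L[ℂ] K)) (Q : C(X₃, ℂ) →⋆ₐ[ℂ] (K →L[ℂ] K)) : Prop where
  cF : ∀ g u, Commute (G g) (F u)
  iF : ∀ g u, Nin Sb g u → G g * F u = 0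
  cQ : ∀ g u, Commute (G g) (Q u)
  iQ : ∀ g u, Nin Sb g u → G g * Q u = 0
  cE : ∀ a u, Commute (Q u) (E a)
  iE : ∀ a u, Nin In a u → Q u * E a = 0

variable {E : C(X₁, ℂ) →⋆ₐ[ℂ] (K →L[ℂ] K)} {F : C(X₃, ℂ) →⋆ₐ[ℂ] (K →L[ℂ] K)}
  {G G' : C(X₂, ℂ) →⋆ₐ[ℂ] (K →L[ℂ] K)} {Q Q' : C(X₃, ℂ) →⋆ₐ[ℂ] (K →L[ℂ] K)}

/-- exactness between `G` and `E` -/
theorem BrR.ex (hC : Coo In Sb α lm T) (b : BrR In Sb E F G Q) {ι : Type} [Fintype ι]
    (g : ι → C(X₂, ℂ)) (a : ι → C(X₁, ℂ))
    (h : ∀ A x Y, Sb A Y → In x Y → ∑ j, g j A * a j x = 0) : ∑ j, G (g j) * E (a j) = 0 := by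
  have hS : IsClosed {q : X₃ × X₂ | Sb q.2 q.1} := hC.clS.preimage continuous_swap
  have hI : IsClosed {q : X₃ × X₁ | In q.2 q.1} := hC.clI.preimage continuous_swap
  have h1 := rect (R₁ := fun Y A => Sb A Y) (R₂ := fun Y x => In x Y) hS hI Q G E 1
    (fun t v => (b.cQ v t).symm) (fun t => Commute.one_right _) (fun t w => b.cE w t)
    (fun t v hn => by
      rw [← (b.cQ v t).eq]
      exact b.iQ v t fun A hA Y hY hAY => hn Y hY A hA hAY)
    (fun t w hn => b.iE w t fun x hx Y hY hxY => hn Y hY x hx hxY)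
    (fun _ => 1) g a (fun Y A x h1 h2 => by
      have h3 := h A x Y h1 h2
      simpa using h3)
  simpa using h1

/-- exactness between `G` and `F` -/
theorem BrR.ex' (hC : Coo In Sb α lm T) (b : BrR In Sb E F G Q) {ι : Type} [Fintype ι]
    (f : ι → C(X₃, ℂ)) (g : ι → C(X₂, ℂ))
    (h : ∀ A L, Sb A L → ∑ j, f j L * g j A = 0) : ∑ j, F (f j) * G (g j) = 0 := by
  have hS : IsClosed {q : X₃ × X₂ | Sb q.2 q.1} := hC.clS.preimage continuous_swap
  have hi : ∀ t v, Nin (fun (L : X₃) (A : X₂) => Sb A L) t v → F t * G v = 0 := fun t v hn => by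
    rw [← (b.cF v t).eq]
    exact b.iF v t fun A hA Y hY hAY => hn Y hY A hA hAY
  have h1 := rect (R₁ := fun L A => Sb A L) (R₂ := fun L A => Sb A L) hS hS F G G 1
    (fun t v => (b.cF v t).symm) (fun t => Commute.one_right _) (fun t v => (b.cF v t).symm)
    hi hi f g (fun _ => 1) (fun L A A' h1 h2 => by
      have h3 := h A L h1
      simpa using h3)
  simpa using h1

theorem BrR.rk (hC : Coo In Sb α lm T) (b : BrR In Sb E F G Q) (i s t j : m) :
    (F (lm i s) - G (α i s)) * (F (lm t j) - G (α t j)) =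
      (F (lm i j) - G (α i j)) * (F (lm t s) - G (α t s)) := by
  have h := b.ex' hC ![lm i s * lm t j, -lm i s, -lm t j, 1, -(lm i j * lm t s), lm i j, lm t s, -1]
    ![1, α t j, α i s, α i s * α t j, 1, α t s, α i j, α i j * α t s] (fun A L hAL => by
      have h1 := hC.rk A L hAL i s t j
      simp [Fin.sum_univ_eight]
      linear_combination h1)
  simp only [Fin.sum_univ_eight, Matrix.cons_val_zero, Matrix.cons_val_one, Matrix.cons_val,
    map_mul, map_neg, map_one, mul_one, one_mul, neg_mul] at h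
  have c1 := (b.cF (α i s) (lm t j)).eq
  have c2 := (b.cF (α i j) (lm t s)).eq
  have e1 : (F (lm i s) - G (α i s)) * (F (lm t j) - G (α t j)) =
      F (lm i s) * F (lm t j) - F (lm i s) * G (α t j) - G (α i s) * F (lm t j) +
        G (α i s) * G (α t j) := by noncomm_ring
  have e2 : (F (lm i j) - G (α i j)) * (F (lm t s) - G (α t s)) =
      F (lm i j) * F (lm t s) - F (lm i j) * G (α t s) - G (α i j) * F (lm t s) +
        G (α i j) * G (α t s) := by noncomm_ring
  rw [e1, e2, c1, c2, ← sub_eq_zero, ← h]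
  abel

/-- **the operator identity** -/
theorem BrR.id (hC : Coo In Sb α lm T) (b : BrR In Sb E F G Q) (i j : m) (u : C(X₃, ℂ))
    (a : C(X₁, ℂ)) :
    G (α i j) * ∑ s, ∑ t, F (u * lm t s) * E (a * T s t) =
      ∑ s, ∑ t, (F (u * (lm i j * lm t s)) * E (a * T s t) -
        F (u * (lm i s * lm t j)) * E (a * T s t)) := by
  have h := star_eq (fun i j => F (lm i j)) (fun i j => G (α i j)) (fun i j => E (T i j))
    (fun i j s t => (b.cF (α s t) (lm i j)).symm)
    (fun i t => b.ex hC (fun s => α i s) (fun s => T s t) fun A x Y h1 h2 => hC.r1 A x Y h1 h2 i t)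
    (fun s j => b.ex hC (fun t => α t j) (fun t => T s t) fun A x Y h1 h2 => hC.r2 A x Y h1 h2 s j)
    (fun i s t j => b.rk hC i s t j) i j
  have h2 := congrArg (fun S => F u * S * E a) h
  have e1 : G (α i j) * ∑ s, ∑ t, F (u * lm t s) * E (a * T s t) =
      F u * (G (α i j) * ∑ s, ∑ t, F (lm t s) * E (T s t)) * E a := by
    simp only [Finset.mul_sum, Finset.sum_mul]
    refine Finset.sum_congr rfl fun s _ => Finset.sum_congr rfl fun t _ => ?_
    rw [map_mul, mul_comm a, map_mul]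
    have c1 := (b.cF (α i j) u).eq
    simp only [← mul_assoc]
    rw [c1]
  have e2 : ∑ s, ∑ t, (F (u * (lm i j * lm t s)) * E (a * T s t) -
        F (u * (lm i s * lm t j)) * E (a * T s t)) =
      F u * (F (lm i j) * ∑ s, ∑ t, F (lm t s) * E (T s t)) * E a -
      F u * (∑ s, ∑ t, F (lm i s) * F (lm t j) * E (T s t)) * E a := by
    simp only [Finset.mul_sum, Finset.sum_mul, ← Finset.sum_sub_distrib]
    refine Finset.sum_congr rfl fun s _ => Finset.sum_congr rfl fun t _ => ?_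
    simp only [map_mul, mul_comm a, mul_assoc]
  rw [e1, e2, ← h2]
  rw [← sub_mul, ← mul_sub, sub_mul, sub_sub_cancel]

/-- the difference of two calculi, as a bilinear map -/
noncomputable def Bd (G G' : C(X₂, ℂ) →⋆ₐ[ℂ] (K →L[ℂ] K)) (F : C(X₃, ℂ) →⋆ₐ[ℂ] (K →L[ℂ] K))
    (E : C(X₁, ℂ) →⋆ₐ[ℂ] (K →L[ℂ] K)) (g : C(X₂, ℂ)) :
    C(X₃, ℂ) →ₗ[ℂ] C(X₁, ℂ) →ₗ[ℂ] (K →L[ℂ] K) :=
  LinearMap.mk₂ ℂ (fun u a => (G g - G' g) * (F u * E a))
    (fun u u' a => by rw [map_add, add_mul, mul_add])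
    (fun c u a => by rw [map_smul, smul_mul_assoc, mul_smul_comm])
    (fun u a a' => by rw [map_add, mul_add, mul_add])
    (fun c u a => by rw [map_smul, mul_smul_comm, mul_smul_comm])

theorem Bd_apply (g : C(X₂, ℂ)) (u : C(X₃, ℂ)) (a : C(X₁, ℂ)) :
    Bd G G' F E g u a = (G g - G' g) * (F u * E a) := rfl

theorem Bd_le (g : C(X₂, ℂ)) (u : C(X₃, ℂ)) (a : C(X₁, ℂ)) :
    ‖Bd G G' F E g u a‖ ≤ ‖G g - G' g‖ * ‖u‖ * ‖a‖ := by
  rw [Bd_apply, mul_assoc]
  refine (norm_mul_le _ _).trans (mul_le_mul_of_nonneg_left ?_ (norm_nonneg _))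
  exact (norm_mul_le _ _).trans (mul_le_mul (cal_le F u) (cal_le E a) (norm_nonneg _)
    (norm_nonneg _))

/-- locally the two calculi agree -/
theorem agree_loc (hC : Coo In Sb α lm T) (b : BrR In Sb E F G Q) (b' : BrR In Sb E F G' Q')
    (u : C(X₃, ℂ)) (a : C(X₁, ℂ)) (L₀ : X₃) (x₀ : X₁) {r A : ℝ} (hr : 0 ≤ r)
    (hA : ∀ i : m × m, ‖lm i.2 i.1‖ ≤ A ∧ ‖T i.1 i.2‖ ≤ A)
    (hu : ∀ L, u L ≠ 0 → ∀ i : m × m, ‖lm i.2 i.1 L - lm i.2 i.1 L₀‖ ≤ r)
    (ha : ∀ x, a x ≠ 0 → ∀ i : m × m, ‖T i.1 i.2 x - T i.1 i.2 x₀‖ ≤ r)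
    (hc : Fintype.card (m × m) * (2 * (2 * r * A)) <
      ‖∑ i : m × m, lm i.2 i.1 L₀ * T i.1 i.2 x₀‖) (g : C(X₂, ℂ)) :
    (G g - G' g) * (F u * E a) = 0 := by
  -- the functions on which they agree
  let PP : Submodule ℂ C(X₂, ℂ) :=
    { carrier := {g | ∀ f h, (G g - G' g) * (F (u * f) * E (a * h)) = 0}
      zero_mem' := fun f h => by rw [map_zero, map_zero, sub_zero, zero_mul]
      add_mem' := fun {g g'} hg hg' f h => by
        have h1 := hg f h
        have h2 := hg' f h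
        rw [map_add, map_add, add_sub_add_comm, add_mul, h1, h2, add_zero]
      smul_mem' := fun c g hg f h => by
        have h1 := hg f h
        rw [map_smul, map_smul, ← smul_sub, smul_mul_assoc, h1, smul_zero] }
  have hPP : ∀ {g}, g ∈ PP ↔ ∀ f h, (G g - G' g) * (F (u * f) * E (a * h)) = 0 := Iff.rfl
  have one : (1 : C(X₂, ℂ)) ∈ PP := hPP.2 fun f h => by rw [map_one, map_one, sub_self, zero_mul]
  -- multiplication by an entry
  have step : ∀ g ∈ PP, ∀ i j, g * α i j ∈ PP := by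
    intro g hg i j
    refine hPP.2 fun f h => ?_
    refine div2 (fun i : m × m => lm i.2 i.1) (fun i => T i.1 i.2) (Bd G G' F E (g * α i j))
      (norm_nonneg _) (Bd_le _) (u * f) (a * h) (fun k l => ?_) L₀ x₀ hr hA
      (fun L hL => hu L fun h0 => hL (by rw [ContinuousMap.mul_apply, h0, zero_mul]))
      (fun x hx => ha x fun h0 => hx (by rw [ContinuousMap.mul_apply, h0, zero_mul])) hc
    have e1 := b.id hC i j (u * f * k) (a * h * l)
    have e2 := b'.id hC i j (u * f * k) (a * h * l)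
    set N := ∑ s, ∑ t, (F (u * f * k * (lm i j * lm t s)) * E (a * h * l * T s t) -
        F (u * f * k * (lm i s * lm t j)) * E (a * h * l * T s t)) with hN
    have e3 : (G g - G' g) * N = 0 := by
      rw [hN, Finset.mul_sum]
      refine Finset.sum_eq_zero fun s _ => ?_
      rw [Finset.mul_sum]
      refine Finset.sum_eq_zero fun t _ => ?_
      rw [mul_sub]
      have h1 := hPP.1 hg (f * k * (lm i j * lm t s)) (h * l * T s t)
      have h2 := hPP.1 hg (f * k * (lm i s * lm t j)) (h * l * T s t)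
      simp only [← mul_assoc] at h1 h2 ⊢
      rw [h1, h2, sub_zero]
    have e4 : ∑ i_1 : m × m, Bd G G' F E (g * α i j) (u * f * k * lm i_1.2 i_1.1)
        (a * h * l * T i_1.1 i_1.2) = (G g - G' g) * N := by
      have e5 : ∑ i_1 : m × m, Bd G G' F E (g * α i j) (u * f * k * lm i_1.2 i_1.1)
          (a * h * l * T i_1.1 i_1.2) = (G (g * α i j) - G' (g * α i j)) *
            ∑ s, ∑ t, F (u * f * k * lm t s) * E (a * h * l * T s t) := by
        rw [Fintype.sum_prod_type, Finset.mul_sum]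
        refine Finset.sum_congr rfl fun s _ => ?_
        rw [Finset.mul_sum]
        rfl
      rw [e5, map_mul G, map_mul G', sub_mul, _root_.mul_assoc (G g), _root_.mul_assoc (G' g),
        e1, e2, ← sub_mul]
    rw [e4, e3]
  -- the multipliers
  let MM : Subalgebra ℂ C(X₂, ℂ) :=
    { carrier := {h | ∀ g ∈ PP, g * h ∈ PP}
      mul_mem' := fun {h h'} hh hh' g hg => by
        rw [← mul_assoc]; exact hh' _ (hh g hg)
      add_mem' := fun {h h'} hh hh' g hg => by
        rw [mul_add]; exact PP.add_mem (hh g hg) (hh' g hg)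
      algebraMap_mem' := fun c g hg => by
        rw [mul_comm, ← Algebra.smul_def]; exact PP.smul_mem c hg }
  let S : Set C(X₂, ℂ) := Set.range fun i : m × m => α i.1 i.2
  have hS : S ⊆ MM := by
    rintro _ ⟨i, rfl⟩
    exact fun g hg => step g hg i.1 i.2
  have hS' : star S ⊆ MM := by
    intro x hx
    obtain ⟨i, hi⟩ := hx
    have hi' : α i.1 i.2 = star x := hi
    have h1 : x = α i.2 i.1 := by
      rw [← hC.herm i.1 i.2, hi', star_star]
    rw [h1]
    exact fun g hg => step g hg i.2 i.1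
  have hle : Algebra.adjoin ℂ (S ∪ star S) ≤ MM := Algebra.adjoin_le (union_subset hS hS')
  have hdense : (StarAlgebra.adjoin ℂ S).topologicalClosure = ⊤ := by
    refine ContinuousMap.starSubalgebra_topologicalClosure_eq_top_of_separatesPoints _ ?_
    intro A A' hne
    have h1 : ∃ i j, α i j A ≠ α i j A' := by
      by_contra hcon
      push Not at hcon
      exact hne (hC.sep A A' hcon)
    obtain ⟨i, j, hij⟩ := h1
    exact ⟨_, ⟨α i j, StarAlgebra.subset_adjoin ℂ S ⟨(i, j), rfl⟩, rfl⟩, hij⟩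
  have hmem : ∀ h ∈ StarAlgebra.adjoin ℂ S, h ∈ PP := by
    intro h hh
    have h1 : h ∈ Algebra.adjoin ℂ (S ∪ star S) := by
      rw [← StarAlgebra.adjoin_toSubalgebra]
      exact hh
    have h2 := hle h1 1 one
    rwa [one_mul] at h2
  have hcl : IsClosed {g : C(X₂, ℂ) | (G g - G' g) * (F u * E a) = 0} := by
    have e1 : Continuous G := AddMonoidHomClass.continuous_of_bound G 1 fun f => by
      rw [one_mul]; exact NonUnitalStarAlgHom.norm_apply_le G f
    have e2 : Continuous G' := AddMonoidHomClass.continuous_of_bound G' 1 fun f => by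
      rw [one_mul]; exact NonUnitalStarAlgHom.norm_apply_le G' f
    exact isClosed_eq ((e1.sub e2).mul continuous_const) continuous_const
  have hg : g ∈ (StarAlgebra.adjoin ℂ S).topologicalClosure := by rw [hdense]; trivial
  have hsub : ((StarAlgebra.adjoin ℂ S : StarSubalgebra ℂ C(X₂, ℂ)) : Set C(X₂, ℂ)) ⊆
      {g : C(X₂, ℂ) | (G g - G' g) * (F u * E a) = 0} := by
    intro h hh
    have h1 := hPP.1 (hmem h hh) 1 1
    rwa [mul_one, mul_one] at h1
  exact hcl.closure_subset_iff.2 hsub hg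

/-- **T3, first part, every local field**: `F u * E a = 0` off incidence. -/
theorem t3R (hC : Coo In Sb α lm T) (b : BrR In Sb E F G Q) (b' : BrR In Sb E F G' Q')
    (agr : ∀ ξ, (∀ g, G g ξ = G' g ξ) → ξ = 0) (u : C(X₃, ℂ)) (a : C(X₁, ℂ)) (h : Nin In a u) :
    F u * E a = 0 := by
  refine two_ind (A := K →L[ℂ] K) (S₁ := tsupport ⇑u) (S₂ := tsupport ⇑a)
    (fun u' a' => F u' * E a')
    (fun u' u'' a' => by simp only [map_add, add_mul])
    (fun u' a' a'' => by simp only [map_add, mul_add])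
    (isClosed_tsupport _).isCompact (isClosed_tsupport _).isCompact
    (fun L₀ hL x₀ hx => ?_) u a subset_rfl subset_rfl
  have hD := hC.dn x₀ L₀ (h x₀ hx L₀ hL)
  set A : ℝ := 1 + ∑ i : m × m, (‖lm i.2 i.1‖ + ‖T i.1 i.2‖) with hAdef
  have hA0 : 0 < A := by positivity
  have hA : ∀ i : m × m, ‖lm i.2 i.1‖ ≤ A ∧ ‖T i.1 i.2‖ ≤ A := by
    intro i
    have h1 := Finset.single_le_sum (f := fun i : m × m => ‖lm i.2 i.1‖ + ‖T i.1 i.2‖)
      (fun i _ => by positivity) (Finset.mem_univ i)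
    have h2 := norm_nonneg (lm i.2 i.1)
    have h3 := norm_nonneg (T i.1 i.2)
    constructor <;> linarith
  set D : ℝ := ‖∑ i : m × m, lm i.2 i.1 L₀ * T i.1 i.2 x₀‖ with hDdef
  have hD0 : 0 < D := by
    rw [hDdef, norm_pos_iff, Fintype.sum_prod_type]
    exact hD
  obtain ⟨r, hr0, hr⟩ : ∃ r : ℝ, 0 < r ∧ Fintype.card (m × m) * (2 * (2 * r * A)) < D := by
    refine ⟨D / (4 * A * (Fintype.card (m × m) + 1)), by positivity, ?_⟩
    have h1 : (Fintype.card (m × m) : ℝ) * (2 * (2 * (D / (4 * A * (Fintype.card (m × m) + 1))) * A))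
        = Fintype.card (m × m) * D / (Fintype.card (m × m) + 1) := by
      field_simp
      ring
    rw [h1, div_lt_iff₀ (by positivity)]
    nlinarith
  let O : Set X₃ := ⋂ i : m × m, {L | ‖lm i.2 i.1 L - lm i.2 i.1 L₀‖ < r}
  let V : Set X₁ := ⋂ i : m × m, {x | ‖T i.1 i.2 x - T i.1 i.2 x₀‖ < r}
  have hO : IsOpen O := isOpen_iInter_of_finite fun i => isOpen_lt (by fun_prop) continuous_const
  have hV : IsOpen V := isOpen_iInter_of_finite fun i => isOpen_lt (by fun_prop) continuous_const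
  refine ⟨O, V, hO, mem_iInter.2 fun i => by simpa using hr0, hV,
    mem_iInter.2 fun i => by simpa using hr0, fun u' a' hu' ha' => ?_⟩
  have key := agree_loc hC b b' u' a' L₀ x₀ hr0.le hA
    (fun L hL i => (mem_iInter.1 (hu' (subset_tsupport _ hL)) i).le)
    (fun x hx i => (mem_iInter.1 (ha' (subset_tsupport _ hx)) i).le) hr
  ext ξ
  refine agr _ fun g => ?_
  have h1 := congrArg (fun S : K →L[ℂ] K => S ξ) (key g)
  simp only [sub_mul] at h1
  exact sub_eq_zero.1 h1

end core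

end Vale.Agent.P092.H378.T3
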