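import Vale.Agent.P092.H232.Join

/-!
# P092, [CLA]: the rectangle lemma (helper179 #12352 (R), helper793 #12524 (CS))

`ν` commutes with `ζ`, `S`, `μ` and is incident with `ζ` and with `μ`. A finite family of products
which vanishes on the incident triples is killed: `∑ ν (t j) * ζ (v j) * S * μ (w j) = 0`.
-/

set_option linter.unusedSectionVars false
set_option linter.unusedVariables false

namespace Vale.Agent.P092.H378.T3

open Set Topology
open Vale.Agent.P092.H232 (Nin two_ind split_inc)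
open Vale.Agent.P092.H835 (isClosed_meet')

section lin

variable {A B : Type*} {ι : Type} [Fintype ι]

/-- linear algebra: a finite sum of products which vanishes on a rectangle -/
theorem lin0 (v : ι → A → ℂ) (w : ι → B → ℂ) (A₀ : Set A) (B₀ : Set B)
    (h : ∀ a ∈ A₀, ∀ b ∈ B₀, ∑ j, v j a * w j b = 0) :
    ∃ (κ : Type) (_ : Fintype κ) (e : κ → ι) (c : ι → κ → ℂ),
      (∀ j, ∀ a ∈ A₀, v j a = ∑ k, c j k * v (e k) a) ∧
        (∀ k, ∀ b ∈ B₀, ∑ j, c j k * w j b = 0) := by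
  classical
  let r : ι → (A₀ → ℂ) := fun j a => v j a
  obtain ⟨κ, e, he, hs, hl⟩ := exists_linearIndependent' ℂ r
  have : Finite κ := Finite.of_injective e he
  have : Fintype κ := Fintype.ofFinite κ
  have h1 : ∀ j, ∃ c : κ → ℂ, ∑ k, c k • (r ∘ e) k = r j := by
    intro j
    have h2 : r j ∈ Submodule.span ℂ (Set.range (r ∘ e)) := by
      rw [hs]
      exact Submodule.subset_span ⟨j, rfl⟩
    exact (Submodule.mem_span_range_iff_exists_fun ℂ).1 h2
  choose c hc using h1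
  refine ⟨κ, inferInstance, e, c, fun j a ha => ?_, fun k b hb => ?_⟩
  · have h2 := congrFun (hc j) ⟨a, ha⟩
    simp only [Finset.sum_apply, Pi.smul_apply, smul_eq_mul, Function.comp_apply] at h2
    exact h2.symm
  · have h2 : ∑ k, (∑ j, c j k * w j b) • (r ∘ e) k = 0 := by
      ext ⟨a, ha⟩
      simp only [Finset.sum_apply, Pi.smul_apply, smul_eq_mul, Function.comp_apply, Pi.zero_apply]
      rw [← h a ha b hb]
      calc ∑ k, (∑ j, c j k * w j b) * r (e k) ⟨a, ha⟩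
          = ∑ k, ∑ j, c j k * w j b * r (e k) ⟨a, ha⟩ :=
            Finset.sum_congr rfl fun k _ => Finset.sum_mul _ _ _
        _ = ∑ j, ∑ k, c j k * w j b * r (e k) ⟨a, ha⟩ := Finset.sum_comm
        _ = ∑ j, v j a * w j b := by
            refine Finset.sum_congr rfl fun j _ => ?_
            have h3 := congrFun (hc j) ⟨a, ha⟩
            simp only [Finset.sum_apply, Pi.smul_apply, smul_eq_mul, Function.comp_apply] at h3
            have h4 : v j a = r j ⟨a, ha⟩ := rfl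
            rw [h4, ← h3, Finset.sum_mul]
            exact Finset.sum_congr rfl fun k _ => by ring
    exact Fintype.linearIndependent_iff.1 hl _ h2 k

end lin

section loc

variable {D A K : Type*} [TopologicalSpace D] [CompactSpace D] [T2Space D]
  [TopologicalSpace A] [CompactSpace A] [T2Space A]
  [NormedAddCommGroup K] [InnerProductSpace ℂ K] [CompleteSpace K]

theorem cal_le (ν : C(D, ℂ) →⋆ₐ[ℂ] (K →L[ℂ] K)) (f : C(D, ℂ)) : ‖ν f‖ ≤ ‖f‖ :=
  NonUnitalStarAlgHom.norm_apply_le ν f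

/-- soft cut-off -/
theorem soft (v : C(A, ℂ)) {ε : ℝ} (hε : 0 < ε) :
    ∃ v' v'' : C(A, ℂ), v = v' + v'' ∧ ‖v''‖ ≤ ε ∧ ∀ a ∈ tsupport v', ε ≤ ‖v a‖ := by
  let m : C(A, ℝ) := ⟨fun a => ε / max ε ‖v a‖, by
    refine continuous_const.div (by fun_prop) fun a => ?_
    exact (lt_of_lt_of_le hε (le_max_left _ _)).ne'⟩
  let v'' : C(A, ℂ) := ⟨fun a => (m a : ℂ) * v a, by fun_prop⟩
  have hm : ∀ a, 0 < max ε ‖v a‖ := fun a => lt_of_lt_of_le hε (le_max_left _ _)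
  refine ⟨v - v'', v'', by rw [sub_add_cancel], ?_, ?_⟩
  · rw [ContinuousMap.norm_le _ hε.le]
    intro a
    change ‖((ε / max ε ‖v a‖ : ℝ) : ℂ) * v a‖ ≤ ε
    rw [norm_mul, Complex.norm_real, Real.norm_of_nonneg (by have := hm a; positivity),
      div_mul_eq_mul_div, div_le_iff₀ (hm a)]
    exact mul_le_mul_of_nonneg_left (le_max_right _ _) hε.le
  · have hcl : IsClosed {a : A | ε ≤ ‖v a‖} := isClosed_le continuous_const (by fun_prop)
    refine closure_minimal (fun a ha => ?_) hcl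
    by_contra hlt
    have hlt' : ‖v a‖ < ε := not_le.1 hlt
    apply ha
    change v a - ((ε / max ε ‖v a‖ : ℝ) : ℂ) * v a = 0
    rw [max_eq_left hlt'.le, div_self hε.ne']
    simp

/-- a function which vanishes on the fibre over `d₀` is small near `d₀` -/
theorem small {R : D → A → Prop} (hR : IsClosed {q : D × A | R q.1 q.2})
    (ν : C(D, ℂ) →⋆ₐ[ℂ] (K →L[ℂ] K)) (ζ : C(A, ℂ) →⋆ₐ[ℂ] (K →L[ℂ] K))
    (i : ∀ t v, Nin R t v → ν t * ζ v = 0) (d₀ : D) (v : C(A, ℂ)) (hv : ∀ a, R d₀ a → v a = 0)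
    {ε : ℝ} (hε : 0 < ε) : ∃ U, IsOpen U ∧ d₀ ∈ U ∧ ∀ χ : C(D, ℂ), (∀ x ∉ U, χ x = 0) →
      (∀ x, ‖χ x‖ ≤ 1) → ‖ν χ * ζ v‖ ≤ ε := by
  obtain ⟨v', v'', hvv, h1, h2⟩ := soft v hε
  have hcl : IsClosed {d : D | ∃ a ∈ tsupport ⇑v', R d a} :=
    isClosed_meet' hR (isClosed_tsupport _)
  have hd : d₀ ∈ {d : D | ∃ a ∈ tsupport ⇑v', R d a}ᶜ := by
    rintro ⟨a, ha, hRa⟩
    have := h2 a ha
    rw [hv a hRa, norm_zero] at this
    linarith
  obtain ⟨C, ⟨hCn, hCc⟩, hCs⟩ := (closed_nhds_basis d₀).mem_iff.1 (hcl.isOpen_compl.mem_nhds hd)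
  refine ⟨interior C, isOpen_interior, mem_interior_iff_mem_nhds.2 hCn, fun χ hχ hχ1 => ?_⟩
  have hs : tsupport ⇑χ ⊆ C := closure_minimal (fun x hx => by
    by_contra hxC
    exact hx (hχ x fun h => hxC (interior_subset h))) hCc
  have h3 : ν χ * ζ v' = 0 := i χ v' fun x hx a ha hxa => hCs (hs hx) ⟨a, ha, hxa⟩
  have h4 : ‖χ‖ ≤ 1 := (ContinuousMap.norm_le _ zero_le_one).2 hχ1
  calc ‖ν χ * ζ v‖ = ‖ν χ * ζ v''‖ := by rw [hvv, map_add, mul_add, h3, zero_add]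
    _ ≤ ‖ν χ‖ * ‖ζ v''‖ := norm_mul_le _ _
    _ ≤ 1 * ε := mul_le_mul ((cal_le ν χ).trans h4) ((cal_le ζ v'').trans h1) (norm_nonneg _)
        zero_le_one
    _ = ε := one_mul ε

/-- **an operator which commutes with a calculus is bounded by its local norms** -/
theorem glob (ν : C(D, ℂ) →⋆ₐ[ℂ] (K →L[ℂ] K)) (T : K →L[ℂ] K) (c : ∀ t, Commute (ν t) T) {ε : ℝ}
    (hε : 0 ≤ ε) (h : ∀ d : D, ∃ U, IsOpen U ∧ d ∈ U ∧ ∀ χ : C(D, ℂ), (∀ x ∉ U, χ x = 0) →
      (∀ x, ‖χ x‖ ≤ 1) → ‖ν χ * T‖ ≤ ε) : ‖T‖ ≤ ε := by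
  classical
  choose U hU hdU hloc using h
  obtain ⟨s, hs⟩ := isCompact_univ.elim_nhds_subcover U fun d _ => (hU d).mem_nhds (hdU d)
  let n := Fintype.card s
  let e : s ≃ Fin n := Fintype.equivFin s
  obtain ⟨f, hf1, hf2, hf3, -⟩ := exists_continuous_sum_one_of_isOpen_isCompact
    (t := (univ : Set D)) (s := fun i : Fin n => U (e.symm i)) (fun i => hU _) isCompact_univ
    (fun x hx => by
      obtain ⟨d, hd, hxd⟩ := mem_iUnion₂.1 (hs.2 hx)
      exact mem_iUnion.2 ⟨e ⟨d, hd⟩, by rwa [Equiv.symm_apply_apply]⟩)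
  have hsum : ∀ x, ∑ i, f i x = 1 := fun x => by
    have := hf2 (mem_univ x)
    simpa using this
  let r : Fin n → C(D, ℂ) := fun i => ⟨fun x => ((Real.sqrt (f i x) : ℝ) : ℂ), by fun_prop⟩
  have hr : ∑ i, star (r i) * r i = 1 := by
    ext x
    simp only [ContinuousMap.coe_sum, Finset.sum_apply, ContinuousMap.mul_apply,
      ContinuousMap.star_apply, ContinuousMap.one_apply]
    have h1 : ∀ i, star (r i x) * r i x = ((f i x : ℝ) : ℂ) := fun i => by
      change star ((Real.sqrt (f i x) : ℝ) : ℂ) * ((Real.sqrt (f i x) : ℝ) : ℂ) = _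
      rw [Complex.star_def, Complex.conj_ofReal, ← Complex.ofReal_mul,
        Real.mul_self_sqrt (hf3 i x).1]
    simp only [h1]
    rw [← Complex.ofReal_sum, hsum x, Complex.ofReal_one]
  have hpar : ∀ η : K, ∑ i, ‖ν (r i) η‖ ^ 2 = ‖η‖ ^ 2 := by
    intro η
    have h1 : ∀ i, ((‖ν (r i) η‖ ^ 2 : ℝ) : ℂ) = inner ℂ η (ν (star (r i) * r i) η) := by
      intro i
      rw [map_mul, map_star, ContinuousLinearMap.mul_apply, ContinuousLinearMap.star_eq_adjoint,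
        ContinuousLinearMap.adjoint_inner_right, inner_self_eq_norm_sq_to_K]
      simp
    have h2 : ((∑ i, ‖ν (r i) η‖ ^ 2 : ℝ) : ℂ) = ((‖η‖ ^ 2 : ℝ) : ℂ) := by
      rw [Complex.ofReal_sum, Finset.sum_congr rfl fun i _ => h1 i, ← inner_sum,
        ← _root_.sum_apply, ← map_sum, hr, map_one, ContinuousLinearMap.one_apply,
        inner_self_eq_norm_sq_to_K]
      simp
    exact_mod_cast h2
  have hcut : ∀ i : Fin n, ∃ g : C(D, ℂ), (∀ x ∉ U (e.symm i), g x = 0) ∧ (∀ x, ‖g x‖ ≤ 1) ∧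
      g * r i = r i := by
    intro i
    obtain ⟨g, h1, h2, h3⟩ := exists_continuous_zero_one_of_isClosed
      (hU (e.symm i)).isClosed_compl (isClosed_tsupport (f i)) (by
        rw [Set.disjoint_left]
        intro x hx hx'
        exact hx (hf1 i hx'))
    refine ⟨⟨fun x => ((g x : ℝ) : ℂ), by fun_prop⟩, fun x hx => ?_, fun x => ?_, ?_⟩
    · change ((g x : ℝ) : ℂ) = 0
      rw [h1 hx]
      simp
    · change ‖((g x : ℝ) : ℂ)‖ ≤ 1
      rw [Complex.norm_real, Real.norm_of_nonneg (h3 x).1]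
      exact (h3 x).2
    · ext x
      change ((g x : ℝ) : ℂ) * ((Real.sqrt (f i x) : ℝ) : ℂ) = ((Real.sqrt (f i x) : ℝ) : ℂ)
      by_cases hx : x ∈ tsupport (f i)
      · rw [h2 hx]
        simp
      · rw [image_eq_zero_of_notMem_tsupport hx]
        simp
  refine ContinuousLinearMap.opNorm_le_bound _ hε fun ξ => ?_
  have key : ‖T ξ‖ ^ 2 ≤ (ε * ‖ξ‖) ^ 2 := by
    rw [← hpar (T ξ), mul_pow, ← hpar ξ, Finset.mul_sum]
    refine Finset.sum_le_sum fun i _ => ?_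
    obtain ⟨g, h1, h2, h3⟩ := hcut i
    have h4 : ν (r i) (T ξ) = (ν g * T) (ν (r i) ξ) := by
      have h5 : ν (r i) * T = ν g * T * ν (r i) := by
        rw [mul_assoc, ← (c (r i)).eq, ← mul_assoc, ← map_mul, h3]
      have h6 := congrArg (fun S : K →L[ℂ] K => S ξ) h5
      exact h6
    rw [h4, ← mul_pow]
    refine pow_le_pow_left₀ (norm_nonneg _) ?_ 2
    exact ((ν g * T).le_opNorm _).trans (mul_le_mul_of_nonneg_right (hloc _ g h1 h2)
      (norm_nonneg _))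
  exact le_of_sq_le_sq key (by positivity)

end loc

section rect

variable {D A B K : Type*} [TopologicalSpace D] [CompactSpace D] [T2Space D]
  [TopologicalSpace A] [CompactSpace A] [T2Space A]
  [TopologicalSpace B] [CompactSpace B] [T2Space B]
  [NormedAddCommGroup K] [InnerProductSpace ℂ K] [CompleteSpace K]

/-- local norm -/
def LocLe (ν : C(D, ℂ) →⋆ₐ[ℂ] (K →L[ℂ] K)) (d : D) (T : K →L[ℂ] K) : Prop :=
  ∀ ε : ℝ, 0 < ε → ∃ U, IsOpen U ∧ d ∈ U ∧ ∀ χ : C(D, ℂ), (∀ x ∉ U, χ x = 0) →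
    (∀ x, ‖χ x‖ ≤ 1) → ‖ν χ * T‖ ≤ ε

theorem LocLe.zero {ν : C(D, ℂ) →⋆ₐ[ℂ] (K →L[ℂ] K)} {d : D} : LocLe ν d 0 := fun ε hε =>
  ⟨univ, isOpen_univ, mem_univ d, fun χ _ _ => by rw [mul_zero, norm_zero]; exact hε.le⟩

theorem LocLe.add {ν : C(D, ℂ) →⋆ₐ[ℂ] (K →L[ℂ] K)} {d : D} {T T' : K →L[ℂ] K}
    (h : LocLe ν d T) (h' : LocLe ν d T') : LocLe ν d (T + T') := by
  intro ε hε
  obtain ⟨U, hU, hd, h1⟩ := h (ε / 2) (by positivity)
  obtain ⟨U', hU', hd', h2⟩ := h' (ε / 2) (by positivity)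
  refine ⟨U ∩ U', hU.inter hU', ⟨hd, hd'⟩, fun χ hχ hχ1 => ?_⟩
  rw [mul_add]
  refine (norm_add_le _ _).trans ?_
  have h3 := h1 χ (fun x hx => hχ x fun h => hx h.1) hχ1
  have h4 := h2 χ (fun x hx => hχ x fun h => hx h.2) hχ1
  linarith

theorem LocLe.sum {ν : C(D, ℂ) →⋆ₐ[ℂ] (K →L[ℂ] K)} {d : D} {ι : Type*} (s : Finset ι)
    {T : ι → (K →L[ℂ] K)} (h : ∀ i ∈ s, LocLe ν d (T i)) : LocLe ν d (∑ i ∈ s, T i) := by
  classical
  induction s using Finset.induction_on with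
  | empty => simpa using LocLe.zero
  | insert a s ha ih =>
    rw [Finset.sum_insert ha]
    exact (h a (Finset.mem_insert_self a s)).add
      (ih fun i hi => h i (Finset.mem_insert_of_mem hi))

theorem LocLe.mul_right {ν : C(D, ℂ) →⋆ₐ[ℂ] (K →L[ℂ] K)} {d : D} {T : K →L[ℂ] K}
    (h : LocLe ν d T) (S : K →L[ℂ] K) : LocLe ν d (T * S) := by
  intro ε hε
  obtain ⟨U, hU, hd, h1⟩ := h (ε / (‖S‖ + 1)) (by positivity)
  refine ⟨U, hU, hd, fun χ hχ hχ1 => ?_⟩
  rw [← mul_assoc]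
  have h2 := h1 χ hχ hχ1
  have hS : 0 < ‖S‖ + 1 := by positivity
  calc ‖ν χ * T * S‖ ≤ ‖ν χ * T‖ * ‖S‖ := norm_mul_le _ _
    _ ≤ ε / (‖S‖ + 1) * (‖S‖ + 1) :=
        mul_le_mul h2 (by linarith) (norm_nonneg _) (by positivity)
    _ = ε := div_mul_cancel₀ _ hS.ne'

theorem LocLe.mul_left {ν : C(D, ℂ) →⋆ₐ[ℂ] (K →L[ℂ] K)} {d : D} {T : K →L[ℂ] K}
    (h : LocLe ν d T) (S : K →L[ℂ] K) (hS : ∀ t, Commute (ν t) S) : LocLe ν d (S * T) := by
  intro ε hε
  obtain ⟨U, hU, hd, h1⟩ := h (ε / (‖S‖ + 1)) (by positivity)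
  refine ⟨U, hU, hd, fun χ hχ hχ1 => ?_⟩
  rw [← mul_assoc, (hS χ).eq, mul_assoc]
  have h2 := h1 χ hχ hχ1
  have hS' : 0 < ‖S‖ + 1 := by positivity
  calc ‖S * (ν χ * T)‖ ≤ ‖S‖ * ‖ν χ * T‖ := norm_mul_le _ _
    _ ≤ (‖S‖ + 1) * (ε / (‖S‖ + 1)) :=
        mul_le_mul (by linarith) h2 (norm_nonneg _) (by positivity)
    _ = ε := mul_div_cancel₀ _ hS'.ne'

/-- a function which vanishes at `d` -/
theorem LocLe.fn (ν : C(D, ℂ) →⋆ₐ[ℂ] (K →L[ℂ] K)) {d : D} (t : C(D, ℂ)) (ht : t d = 0) :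
    LocLe ν d (ν t) := by
  intro ε hε
  refine ⟨{x | ‖t x‖ < ε}, isOpen_lt (by fun_prop) continuous_const, by simpa [ht] using hε,
    fun χ hχ hχ1 => ?_⟩
  rw [← map_mul]
  refine (cal_le ν _).trans ((ContinuousMap.norm_le _ hε.le).2 fun x => ?_)
  rw [ContinuousMap.mul_apply, norm_mul]
  by_cases hx : x ∈ {x | ‖t x‖ < ε}
  · have h1 : ‖t x‖ < ε := hx
    calc ‖χ x‖ * ‖t x‖ ≤ 1 * ε := mul_le_mul (hχ1 x) h1.le (norm_nonneg _) zero_le_one
      _ = ε := one_mul ε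
  · rw [hχ x hx, norm_zero, zero_mul]
    exact hε.le

theorem zero_of_loc (ν : C(D, ℂ) →⋆ₐ[ℂ] (K →L[ℂ] K)) {T : K →L[ℂ] K}
    (c : ∀ t, Commute (ν t) T) (h : ∀ d, LocLe ν d T) : T = 0 := by
  rw [← norm_le_zero_iff]
  refine le_of_forall_pos_le_add fun ε hε => ?_
  rw [zero_add]
  exact glob ν T c hε.le fun d => h d ε hε

/-- **the rectangle lemma** -/
theorem rect {R₁ : D → A → Prop} {R₂ : D → B → Prop} (h₁ : IsClosed {q : D × A | R₁ q.1 q.2})
    (h₂ : IsClosed {q : D × B | R₂ q.1 q.2})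
    (ν : C(D, ℂ) →⋆ₐ[ℂ] (K →L[ℂ] K)) (ζ : C(A, ℂ) →⋆ₐ[ℂ] (K →L[ℂ] K))
    (μ : C(B, ℂ) →⋆ₐ[ℂ] (K →L[ℂ] K)) (S : K →L[ℂ] K)
    (c₁ : ∀ t v, Commute (ν t) (ζ v)) (cS : ∀ t, Commute (ν t) S)
    (c₂ : ∀ t w, Commute (ν t) (μ w))
    (i₁ : ∀ t v, Nin R₁ t v → ν t * ζ v = 0) (i₂ : ∀ t w, Nin R₂ t w → ν t * μ w = 0)
    {ι : Type} [Fintype ι] (t : ι → C(D, ℂ)) (v : ι → C(A, ℂ)) (w : ι → C(B, ℂ))
    (h : ∀ d a b, R₁ d a → R₂ d b → ∑ j, t j d * v j a * w j b = 0) :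
    ∑ j, ν (t j) * ζ (v j) * S * μ (w j) = 0 := by
  refine zero_of_loc ν (fun t' => ?_) fun d => ?_
  · refine Finset.sum_induction _ (fun T => Commute (ν t') T) (fun _ _ h h' => h.add_right h')
      (Commute.zero_right _) fun j _ => ?_
    have h3 : Commute (ν t') (ν (t j)) := by
      have : ν t' * ν (t j) = ν (t j) * ν t' := by rw [← map_mul, ← map_mul, mul_comm]
      exact this
    exact ((h3.mul_right (c₁ t' (v j))).mul_right (cS t')).mul_right (c₂ t' (w j))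
  · obtain ⟨κ, hκ, e, c, hc1, hc2⟩ := lin0 (fun j a => t j d * v j a) (fun j b => w j b)
      {a | R₁ d a} {b | R₂ d b} (fun a ha b hb => h d a b ha hb)
    -- the vanishing parts
    let x : ι → C(A, ℂ) := fun j => t j d • v j - ∑ k, (c j k * t (e k) d) • v (e k)
    let y : κ → C(B, ℂ) := fun k => ∑ j, c j k • w j
    have hx : ∀ j a, R₁ d a → x j a = 0 := by
      intro j a ha
      have h3 := hc1 j a ha
      simp only [x, ContinuousMap.sub_apply, ContinuousMap.smul_apply, ContinuousMap.coe_sum,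
        Finset.sum_apply, smul_eq_mul]
      rw [h3, sub_eq_zero]
      exact Finset.sum_congr rfl fun k _ => by ring
    have hy : ∀ k b, R₂ d b → y k b = 0 := by
      intro k b hb
      have h3 := hc2 k b hb
      simpa only [y, ContinuousMap.smul_apply, ContinuousMap.coe_sum, Finset.sum_apply,
        smul_eq_mul] using h3
    have h3 : ∀ j, LocLe ν d (ζ (x j)) := fun j ε hε => small h₁ ν ζ i₁ d (x j) (hx j) hε
    have h4 : ∀ k, LocLe ν d (μ (y k)) := fun k ε hε => small h₂ ν μ i₂ d (y k) (hy k) hε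
    have e1 : ∀ j, ν (t j) = ν (t j - t j d • 1) + t j d • (1 : K →L[ℂ] K) := fun j => by
      rw [map_sub, map_smul, map_one, sub_add_cancel]
    have e2 : ∀ j, t j d • ζ (v j) = ζ (x j) + ∑ k, (c j k * t (e k) d) • ζ (v (e k)) := by
      intro j
      simp only [x, map_sub, map_smul, map_sum, sub_add_cancel]
    have e3 : ∑ j, ν (t j) * ζ (v j) * S * μ (w j) =
        ∑ j, ν (t j - t j d • 1) * (ζ (v j) * S * μ (w j)) + ∑ j, ζ (x j) * (S * μ (w j)) +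
        ∑ k, (t (e k) d • ζ (v (e k)) * S) * μ (y k) := by
      have e4 : ∀ j, ν (t j) * ζ (v j) * S * μ (w j) =
          ν (t j - t j d • 1) * (ζ (v j) * S * μ (w j)) + ζ (x j) * (S * μ (w j)) +
          ∑ k, c j k • ((t (e k) d • ζ (v (e k)) * S) * μ (w j)) := by
        intro j
        have e5 : ν (t j) * ζ (v j) * S * μ (w j) =
            ν (t j - t j d • 1) * (ζ (v j) * S * μ (w j)) + t j d • ζ (v j) * (S * μ (w j)) := by
          conv_lhs => rw [e1 j]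
          simp only [add_mul, smul_mul_assoc, one_mul, mul_assoc]
        rw [e5, e2 j, add_mul, Finset.sum_mul, ← add_assoc]
        congr 1
        refine Finset.sum_congr rfl fun k _ => ?_
        simp only [smul_mul_assoc, mul_smul, mul_assoc]
      rw [Finset.sum_congr rfl fun j _ => e4 j, Finset.sum_add_distrib, Finset.sum_add_distrib]
      congr 1
      rw [Finset.sum_comm]
      refine Finset.sum_congr rfl fun k _ => ?_
      simp only [y, map_sum, map_smul, Finset.mul_sum, mul_smul_comm]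
    rw [e3]
    refine ((LocLe.sum _ fun j _ => ?_).add (LocLe.sum _ fun j _ => ?_)).add
      (LocLe.sum _ fun k _ => ?_)
    · refine (LocLe.fn ν _ ?_).mul_right _
      simp
    · exact (h3 j).mul_right _
    · refine (h4 k).mul_left _ fun t' => ?_
      exact ((c₁ t' (v (e k))).smul_right _).mul_right (cS t')

end rect

end Vale.Agent.P092.H378.T3
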